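import Mathlib
import Crest.Prelude.Def_QuadraticTransport

set_option autoImplicit false
set_option linter.unusedSectionVars false
open MeasureTheory
open scoped ENNReal NNReal
open Crest.AnalysisR.OT

namespace Crest.Agent.R82B

section abstract
variable {E : Type*} [NormedAddCommGroup E] [InnerProductSpace ℝ E] [MeasurableSpace E]
  [BorelSpace E] [SecondCountableTopology E]

lemma enorm_sq_eq (x : E) : ‖x‖ₑ ^ 2 = ENNReal.ofReal (‖x‖ ^ 2) := by
  rw [← ofReal_norm, ENNReal.ofReal_pow (norm_nonneg _)]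

lemma point_real (x t s : E) :
    (‖x - s‖ ^ 2 + ‖t‖ ^ 2) - (‖x - t‖ ^ 2 + ‖s‖ ^ 2) = 2 * (inner ℝ x t - inner ℝ x s) := by
  rw [norm_sub_sq_real, norm_sub_sq_real]; ring

lemma point_le (x t s : E) (h : inner ℝ x s ≤ inner ℝ x t) :
    ‖x - t‖ₑ ^ 2 + ‖s‖ₑ ^ 2 ≤ ‖x - s‖ₑ ^ 2 + ‖t‖ₑ ^ 2 := by
  simp only [enorm_sq_eq]
  rw [← ENNReal.ofReal_add (by positivity) (by positivity),
    ← ENNReal.ofReal_add (by positivity) (by positivity)]
  apply ENNReal.ofReal_le_ofReal
  have := point_real x t s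
  linarith

lemma point_eq (x t s : E)
    (h : ‖x - t‖ₑ ^ 2 + ‖s‖ₑ ^ 2 = ‖x - s‖ₑ ^ 2 + ‖t‖ₑ ^ 2) : inner ℝ x s = inner ℝ x t := by
  simp only [enorm_sq_eq] at h
  rw [← ENNReal.ofReal_add (by positivity) (by positivity),
    ← ENNReal.ofReal_add (by positivity) (by positivity),
    ENNReal.ofReal_eq_ofReal_iff (by positivity) (by positivity)] at h
  have := point_real x t s
  linarith

theorem opt (ρ : Measure E) [IsFiniteMeasure ρ] (B : ℝ) (hB : ∀ᵐ x ∂ρ, ‖x‖ ≤ B)
    (Y : Set E) (hY : Y.Finite) (T : E → E) (hT : Measurable T) (hTY : ∀ x, T x ∈ Y)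
    (hmax : ∀ x, ∀ z ∈ Y, inner ℝ x z ≤ inner ℝ x (T x)) :
    IsOptimalMap ρ (ρ.map T) T ∧
      ∀ S, IsOptimalMap ρ (ρ.map T) S → ∀ᵐ x ∂ρ, S x ∈ Y ∧ inner ℝ x (S x) = inner ℝ x (T x) := by
  obtain ⟨D, hD⟩ := hY.isBounded.exists_norm_le
  have hYm : MeasurableSet Y := hY.measurableSet
  have hn : Measurable fun z : E => ‖z‖ₑ ^ 2 := by fun_prop
  have hSY : ∀ S : E → E, Measurable S → ρ.map S = ρ.map T → ∀ᵐ x ∂ρ, S x ∈ Y := by
    intro S hS hST
    have h1 : ∀ᵐ z ∂(ρ.map T), z ∈ Y := by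
      exact (ae_map_iff (p := fun z => z ∈ Y) hT.aemeasurable hYm).2
        (Filter.Eventually.of_forall hTY)
    rw [← hST] at h1
    exact (ae_map_iff (p := fun z => z ∈ Y) hS.aemeasurable hYm).1 h1
  have hint : ∀ S : E → E, Measurable S → ρ.map S = ρ.map T →
      ∫⁻ x, ‖S x‖ₑ ^ 2 ∂ρ = ∫⁻ x, ‖T x‖ₑ ^ 2 ∂ρ := by
    intro S hS hST
    rw [← lintegral_map hn hS, ← lintegral_map hn hT, hST]
  have hfinT : ∫⁻ x, ‖T x‖ₑ ^ 2 ∂ρ ≠ ∞ := by
    have : ∫⁻ x, ‖T x‖ₑ ^ 2 ∂ρ ≤ ∫⁻ _x, ENNReal.ofReal (D ^ 2) ∂ρ := by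
      apply lintegral_mono
      intro x
      simp only [enorm_sq_eq]
      apply ENNReal.ofReal_le_ofReal
      have := hD _ (hTY x)
      gcongr
    refine ne_top_of_le_ne_top ?_ this
    rw [lintegral_const]
    exact ENNReal.mul_ne_top ENNReal.ofReal_ne_top (measure_ne_top _ _)
  have hfinC : ∫⁻ x, ‖x - T x‖ₑ ^ 2 ∂ρ ≠ ∞ := by
    have : ∫⁻ x, ‖x - T x‖ₑ ^ 2 ∂ρ ≤ ∫⁻ _x, ENNReal.ofReal ((B + D) ^ 2) ∂ρ := by
      apply lintegral_mono_ae
      filter_upwards [hB] with x hx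
      simp only [enorm_sq_eq]
      apply ENNReal.ofReal_le_ofReal
      have h1 := hD _ (hTY x)
      have h2 : ‖x - T x‖ ≤ B + D := (norm_sub_le _ _).trans (add_le_add hx h1)
      gcongr
    refine ne_top_of_le_ne_top ?_ this
    rw [lintegral_const]
    exact ENNReal.mul_ne_top ENNReal.ofReal_ne_top (measure_ne_top _ _)
  have hle : ∀ S : E → E, Measurable S → ρ.map S = ρ.map T →
      (fun x => ‖x - T x‖ₑ ^ 2 + ‖S x‖ₑ ^ 2) ≤ᵐ[ρ] fun x => ‖x - S x‖ₑ ^ 2 + ‖T x‖ₑ ^ 2 := by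
    intro S hS hST
    filter_upwards [hSY S hS hST] with x hx
    exact point_le x (T x) (S x) (hmax x _ hx)
  have hadd1 : ∀ S : E → E, Measurable S →
      ∫⁻ x, (‖x - T x‖ₑ ^ 2 + ‖S x‖ₑ ^ 2) ∂ρ
        = ∫⁻ x, ‖x - T x‖ₑ ^ 2 ∂ρ + ∫⁻ x, ‖S x‖ₑ ^ 2 ∂ρ := by
    intro S hS
    apply lintegral_add_right
    fun_prop
  have hadd2 : ∀ S : E → E, Measurable S →
      ∫⁻ x, (‖x - S x‖ₑ ^ 2 + ‖T x‖ₑ ^ 2) ∂ρ
        = ∫⁻ x, ‖x - S x‖ₑ ^ 2 ∂ρ + ∫⁻ x, ‖T x‖ₑ ^ 2 ∂ρ := by
    intro S hS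
    apply lintegral_add_right
    fun_prop
  refine ⟨⟨hT, rfl, ?_⟩, ?_⟩
  · intro S hS hST
    have h1 := lintegral_mono_ae (hle S hS hST)
    rw [hadd1 S hS, hadd2 S hS, hint S hS hST] at h1
    exact (ENNReal.add_le_add_iff_right hfinT).1 h1
  · rintro S ⟨hS, hST, hopt⟩
    have h2 := hopt T hT rfl
    have h3 : (fun x => ‖x - T x‖ₑ ^ 2 + ‖S x‖ₑ ^ 2) =ᵐ[ρ]
        fun x => ‖x - S x‖ₑ ^ 2 + ‖T x‖ₑ ^ 2 := by
      apply ae_eq_of_ae_le_of_lintegral_le (hle S hS hST)
      · rw [hadd1 S hS, hint S hS hST]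
        exact ENNReal.add_ne_top.2 ⟨hfinC, hfinT⟩
      · exact (by fun_prop : Measurable fun x => ‖x - S x‖ₑ ^ 2 + ‖T x‖ₑ ^ 2).aemeasurable
      · rw [hadd1 S hS, hadd2 S hS, hint S hS hST]
        gcongr
    filter_upwards [h3, hSY S hS hST] with x hx hxY
    exact ⟨hxY, point_eq x (T x) (S x) hx⟩

theorem threeAtomic (ρ : Measure E) [IsFiniteMeasure ρ] (y : Fin 3 → E) (hy : Function.Injective y)
    (τ : E → Fin 3) (hτ : Measurable τ) (hpos : ∀ i, ρ (τ ⁻¹' {i}) ≠ 0) :
    IsThreeAtomic (ρ.map (y ∘ τ)) := by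
  have hym : Measurable y := measurable_of_countable y
  refine ⟨y, hy, fun i => (ρ (τ ⁻¹' {i})).toReal, fun i => ?_, ?_⟩
  · exact ENNReal.toReal_pos (hpos i) (measure_ne_top _ _)
  · rw [← Measure.map_map hym hτ]
    conv_lhs => rw [← Measure.sum_smul_dirac (ρ.map τ), Measure.sum_fintype]
    rw [Measure.map_finset_sum hym.aemeasurable]
    refine Finset.sum_congr rfl fun i _ => ?_
    rw [Measure.map_smul, Measure.map_dirac' hym, ENNReal.ofReal_toReal (measure_ne_top _ _),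
      Measure.map_apply hτ (measurableSet_singleton i)]

end abstract

section concrete

variable {n : ℕ}

abbrev EE (n : ℕ) := EuclideanSpace ℝ (Fin (n + 2))

def cube (n : ℕ) : Set (EE n) := {x | ∀ i, |x i| ≤ 1}

def box (a b : Fin (n + 2) → ℝ) : Set (EE n) := {x | ∀ i, x i ∈ Set.Icc (a i) (b i)}

lemma vol_box (a b : Fin (n + 2) → ℝ) :
    volume (box a b) = ∏ i, ENNReal.ofReal (b i - a i) := by
  have h : box a b = (WithLp.ofLp : EE n → (Fin (n + 2) → ℝ)) ⁻¹' (Set.Icc a b) := by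
    ext x
    simp only [box, Set.mem_ofPred_eq, Set.mem_preimage, Set.mem_Icc, Pi.le_def]
    exact ⟨fun h => ⟨fun i => (h i).1, fun i => (h i).2⟩, fun h i => ⟨h.1 i, h.2 i⟩⟩
  rw [h, (PiLp.volume_preserving_ofLp (Fin (n + 2))).measure_preimage
    measurableSet_Icc.nullMeasurableSet, Real.volume_Icc_pi]

lemma cube_eq : cube n = box (fun _ => -1) (fun _ => 1) := by
  ext x
  simp only [cube, box, Set.mem_ofPred_eq, Set.mem_Icc, abs_le]

lemma vol_cube : volume (cube n) = ENNReal.ofReal (2 ^ (n + 2)) := by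
  rw [cube_eq, vol_box, Finset.prod_const, Finset.card_univ, Fintype.card_fin,
    ENNReal.ofReal_pow (by norm_num)]
  norm_num

lemma isClosed_cube : IsClosed (cube n) := by
  have : cube n = ⋂ i, {x : EE n | |x i| ≤ 1} := by
    ext x; simp [cube]
  rw [this]
  exact isClosed_iInter fun i => isClosed_le (by fun_prop) continuous_const

lemma measurableSet_cube : MeasurableSet (cube n) := isClosed_cube.measurableSet

noncomputable def rho (n : ℕ) : Measure (EE n) := uniformProbOn (cube n)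

lemma rho_apply (s : Set (EE n)) (hs : MeasurableSet s) :
    rho n s = (ENNReal.ofReal (2 ^ (n + 2)))⁻¹ * volume (s ∩ cube n) := by
  simp only [rho, uniformProbOn, Measure.smul_apply, smul_eq_mul, Measure.restrict_apply hs,
    vol_cube]

instance : IsProbabilityMeasure (rho n) := by
  constructor
  rw [rho_apply _ MeasurableSet.univ, Set.univ_inter, vol_cube]
  apply ENNReal.inv_mul_cancel
  · simp
  · exact ENNReal.ofReal_ne_top

lemma ae_cube : ∀ᵐ x ∂(rho n), x ∈ cube n := by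
  rw [ae_iff]
  change rho n (cube n)ᶜ = 0
  rw [rho_apply _ measurableSet_cube.compl]
  simp

lemma ae_norm : ∀ᵐ x ∂(rho n), ‖x‖ ≤ (n + 2 : ℝ) := by
  filter_upwards [ae_cube] with x hx
  rw [EuclideanSpace.norm_eq]
  apply Real.sqrt_le_iff.2 ⟨by positivity, ?_⟩
  have h1 : ∑ i, ‖x i‖ ^ 2 ≤ ∑ _i : Fin (n + 2), (1 : ℝ) := by
    apply Finset.sum_le_sum
    intro i _
    have := hx i
    rw [Real.norm_eq_abs]
    have h0 := abs_nonneg (x i)
    nlinarith
  simp only [Finset.sum_const, Finset.card_univ, Fintype.card_fin, nsmul_eq_mul, mul_one] at h1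
  push_cast at h1
  have : (0 : ℝ) ≤ n := Nat.cast_nonneg n
  nlinarith

lemma rho_ge_box (s : Set (EE n)) (hs : MeasurableSet s) (a b : Fin (n + 2) → ℝ)
    (h : box a b ⊆ s ∩ cube n) :
    (ENNReal.ofReal (2 ^ (n + 2)))⁻¹ * ∏ i, ENNReal.ofReal (b i - a i) ≤ rho n s := by
  rw [rho_apply s hs, ← vol_box]
  gcongr

lemma rho_le_box (s : Set (EE n)) (hs : MeasurableSet s) (a b : Fin (n + 2) → ℝ)
    (h : s ∩ cube n ⊆ box a b) :
    rho n s ≤ (ENNReal.ofReal (2 ^ (n + 2)))⁻¹ * ∏ i, ENNReal.ofReal (b i - a i) := by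
  rw [rho_apply s hs, ← vol_box]
  gcongr

lemma rho_ne_zero (s : Set (EE n)) (hs : MeasurableSet s) (a b : Fin (n + 2) → ℝ)
    (hab : ∀ i, a i < b i) (h : box a b ⊆ s ∩ cube n) : rho n s ≠ 0 := by
  have h1 := rho_ge_box s hs a b h
  refine ne_of_gt (lt_of_lt_of_le ?_ h1)
  apply ENNReal.mul_pos
  · exact ENNReal.inv_ne_zero.2 ENNReal.ofReal_ne_top
  · rw [Finset.prod_ne_zero_iff]
    intro i _
    have := hab i
    simp only [ne_eq, ENNReal.ofReal_eq_zero, not_le]
    linarith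

noncomputable def e0 (n : ℕ) : EE n := EuclideanSpace.single 0 1
noncomputable def e1 (n : ℕ) : EE n := EuclideanSpace.single 1 1

noncomputable def atom (n : ℕ) (h : ℝ) : Fin 3 → EE n := ![e0 n, -e0 n, h • e1 n]

noncomputable def tau (h : ℝ) (x : EE n) : Fin 3 :=
  if |x 0| < h * x 1 then 2 else if 0 ≤ x 0 then 0 else 1

def wedge (n : ℕ) (h : ℝ) : Set (EE n) := {x | |x 0| < h * x 1}

lemma measurableSet_wedge (h : ℝ) : MeasurableSet (wedge n h) :=
  (isOpen_lt (by fun_prop) (by fun_prop)).measurableSet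

lemma measurable_tau (h : ℝ) : Measurable (tau (n := n) h) := by
  unfold tau
  refine Measurable.ite (measurableSet_wedge h) measurable_const ?_
  refine Measurable.ite ?_ measurable_const measurable_const
  exact (isClosed_le continuous_const (by fun_prop)).measurableSet

noncomputable def TT (n : ℕ) (h : ℝ) : EE n → EE n := atom n h ∘ tau h

lemma measurable_TT (h : ℝ) : Measurable (TT n h) :=
  (measurable_of_countable _).comp (measurable_tau h)

lemma inner_e0 (x : EE n) : inner ℝ x (e0 n) = x 0 := by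
  simp [e0, EuclideanSpace.inner_single_right]

lemma inner_e1 (x : EE n) : inner ℝ x (e1 n) = x 1 := by
  simp [e1, EuclideanSpace.inner_single_right]

lemma inner_atom0 (h : ℝ) (x : EE n) : inner ℝ x (atom n h 0) = x 0 := by
  simp [atom, inner_e0]

lemma inner_atom1 (h : ℝ) (x : EE n) : inner ℝ x (atom n h 1) = - x 0 := by
  simp [atom, inner_e0]

lemma inner_atom2 (h : ℝ) (x : EE n) : inner ℝ x (atom n h 2) = h * x 1 := by
  simp [atom, inner_e1, inner_smul_right]

lemma atom_inj (h : ℝ) : Function.Injective (atom n h) := by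
  intro i j hij
  have h0 := congrArg (fun z : EE n => inner ℝ (e0 n) z) hij
  have e00 : (e0 n) 0 = 1 := by simp [e0]
  have e01 : (e0 n) 1 = 0 := by simp [e0]
  fin_cases i <;> fin_cases j <;>
    simp only [Fin.zero_eta, Fin.mk_one, Fin.reduceFinMk, inner_atom0, inner_atom1, inner_atom2,
      e00, e01] at h0 ⊢ <;> first | rfl | (exfalso; linarith)

lemma inner_TT (h : ℝ) (x : EE n) : inner ℝ x (TT n h x) = max |x 0| (h * x 1) := by
  simp only [TT, Function.comp, tau]
  split_ifs with h1 h2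
  · rw [inner_atom2, max_eq_right h1.le]
  · rw [inner_atom0, max_eq_left (not_lt.1 h1), abs_of_nonneg h2]
  · rw [inner_atom1, max_eq_left (not_lt.1 h1), abs_of_neg (not_le.1 h2)]

lemma hmax (h : ℝ) (x : EE n) : ∀ z ∈ Set.range (atom n h), inner ℝ x z ≤ inner ℝ x (TT n h x) := by
  rintro z ⟨i, rfl⟩
  rw [inner_TT]
  fin_cases i
  · simp only [Fin.zero_eta, inner_atom0]
    exact (le_abs_self _).trans (le_max_left _ _)
  · simp only [Fin.mk_one, inner_atom1]
    exact (neg_le_abs _).trans (le_max_left _ _)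
  · simp only [Fin.reduceFinMk, inner_atom2]
    exact le_max_right _ _

lemma opt_TT (h : ℝ) :
    IsOptimalMap (rho n) ((rho n).map (TT n h)) (TT n h) ∧
      ∀ S, IsOptimalMap (rho n) ((rho n).map (TT n h)) S →
        ∀ᵐ x ∂(rho n), S x ∈ Set.range (atom n h) ∧
          inner ℝ x (S x) = inner ℝ x (TT n h x) :=
  opt (rho n) _ ae_norm _ (Set.finite_range _) _ (measurable_TT h)
    (fun x => ⟨_, rfl⟩) (hmax h)

lemma atom_mem (h : ℝ) (hh : |h| ≤ 1) (i : Fin 3) : atom n h i ∈ cube n := by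
  intro j
  fin_cases i
  · simp only [atom, e0, Fin.zero_eta, Matrix.cons_val_zero, PiLp.single_apply]
    split_ifs <;> simp
  · simp only [atom, e0, Fin.mk_one, Matrix.cons_val_one, Matrix.cons_val_zero, PiLp.neg_apply,
      PiLp.single_apply, abs_neg]
    split_ifs <;> simp
  · simp only [atom, e1, Fin.reduceFinMk, Matrix.cons_val, PiLp.smul_apply, PiLp.single_apply,
      smul_eq_mul]
    split_ifs <;> simp [hh]

lemma probOn (h : ℝ) (hh : |h| ≤ 1) : IsProbabilityOn (cube n) ((rho n).map (TT n h)) := by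
  refine ⟨Measure.isProbabilityMeasure_map (measurable_TT h).aemeasurable, ?_⟩
  rw [Measure.map_apply (measurable_TT h) measurableSet_cube.compl]
  have : TT n h ⁻¹' (cube n)ᶜ = ∅ := by
    ext x
    simp only [Set.mem_preimage, Set.mem_compl_iff, Set.mem_empty_iff_false, iff_false, not_not]
    exact atom_mem h hh _
  rw [this, measure_empty]

noncomputable def refl1 (n : ℕ) : EE n ≃ₗᵢ[ℝ] EE n :=
  LinearIsometryEquiv.piLpCongrRight 2
    (fun i => if i = 1 then LinearIsometryEquiv.neg ℝ else LinearIsometryEquiv.refl ℝ ℝ)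

lemma refl1_apply (x : EE n) (i : Fin (n + 2)) : refl1 n x i = if i = 1 then - x i else x i := by
  simp only [refl1, LinearIsometryEquiv.piLpCongrRight_apply]
  split_ifs <;> simp

lemma refl1_abs (x : EE n) (i : Fin (n + 2)) : |refl1 n x i| = |x i| := by
  rw [refl1_apply]; split_ifs <;> simp

lemma measurable_refl1 : Measurable (refl1 n) := (refl1 n).continuous.measurable

lemma map_refl1 : (rho n).map (refl1 n) = rho n := by
  ext s hs
  rw [Measure.map_apply measurable_refl1 hs, rho_apply _ (measurable_refl1 hs), rho_apply _ hs]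
  congr 1
  have : refl1 n ⁻¹' s ∩ cube n = refl1 n ⁻¹' (s ∩ cube n) := by
    ext x
    simp only [Set.mem_inter_iff, Set.mem_preimage, cube, Set.mem_ofPred_eq, refl1_abs]
  rw [this, (refl1 n).measurePreserving.measure_preimage
    (hs.inter measurableSet_cube).nullMeasurableSet]

lemma tau_refl1 (h : ℝ) (x : EE n) : tau (-h) (refl1 n x) = tau h x := by
  have h0 : refl1 n x 0 = x 0 := by rw [refl1_apply]; simp
  have h1 : refl1 n x 1 = - x 1 := by rw [refl1_apply]; simp
  simp only [tau, h0, h1, neg_mul_neg]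

lemma tau_pre2 (h : ℝ) : tau h ⁻¹' {2} = wedge n h := by
  ext x
  simp only [Set.mem_preimage, Set.mem_singleton_iff, tau, wedge, Set.mem_ofPred_eq]
  split_ifs with h1 h2 <;> simp [h1]

lemma wedge_lower (h : ℝ) (h0 : 0 < h) (h1 : h ≤ 1) :
    ENNReal.ofReal (h / 4 ^ (n + 2)) ≤ rho n (wedge n h) := by
  have := rho_ge_box (wedge n h) (measurableSet_wedge h)
    (Fin.cons (-(h / 4)) fun _ => 1 / 2) (Fin.cons (h / 4) fun _ => 1) ?_
  · refine le_trans (le_of_eq ?_) this
    rw [Fin.prod_univ_succ]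
    simp only [Fin.cons_zero, Fin.cons_succ, Finset.prod_const, Finset.card_univ,
      Fintype.card_fin]
    rw [← ENNReal.ofReal_pow (by norm_num), ← ENNReal.ofReal_mul (by linarith),
      ← ENNReal.ofReal_inv_of_pos (by positivity), ← ENNReal.ofReal_mul (by positivity)]
    congr 1
    have : (4 : ℝ) ^ (n + 2) = 2 ^ (n + 2) * 2 ^ (n + 2) := by
      rw [← mul_pow]; norm_num
    rw [this]
    have h2 : (1 - 1 / 2 : ℝ) = 2⁻¹ := by norm_num
    rw [h2, inv_pow]
    field_simp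
    ring
  · intro x hx
    have hx0 := hx 0
    have hx1 := hx 1
    simp only [Fin.cons_zero, Set.mem_Icc] at hx0
    have hx1' : 1 / 2 ≤ x 1 ∧ x 1 ≤ 1 := hx1
    refine ⟨?_, fun i => ?_⟩
    · change |x 0| < h * x 1
      rw [abs_lt]
      constructor <;> nlinarith
    · refine Fin.cases ?_ (fun j => ?_) i
      · rw [abs_le]; constructor <;> linarith
      · have hj : 1 / 2 ≤ x j.succ ∧ x j.succ ≤ 1 := by simpa using hx j.succ
        rw [abs_le]; constructor <;> linarith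

lemma wedge_upper (h : ℝ) (h0 : 0 < h) :
    rho n (wedge n h) ≤ ENNReal.ofReal h := by
  have := rho_le_box (wedge n h) (measurableSet_wedge h)
    (Fin.cons (-h) fun _ => -1) (Fin.cons h fun _ => 1) ?_
  · refine le_trans this (le_of_eq ?_)
    rw [Fin.prod_univ_succ]
    simp only [Fin.cons_zero, Fin.cons_succ, Finset.prod_const, Finset.card_univ,
      Fintype.card_fin]
    rw [← ENNReal.ofReal_pow (by norm_num), ← ENNReal.ofReal_mul (by linarith),
      ← ENNReal.ofReal_inv_of_pos (by positivity), ← ENNReal.ofReal_mul (by positivity)]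
    congr 1
    have h2 : (1 - -1 : ℝ) = 2 := by norm_num
    rw [h2]
    field_simp
    ring
  · rintro x ⟨hx, hc⟩ i
    refine Fin.cases ?_ (fun j => ?_) i
    · have h2 : |x 0| < h * x 1 := hx
      have h3 := abs_le.1 (hc 1)
      have h4 := abs_lt.1 h2
      simp only [Fin.cons_zero, Set.mem_Icc]
      constructor <;> nlinarith
    · simp only [Fin.cons_succ, Set.mem_Icc]
      exact abs_le.1 (hc _)

lemma tau_pos01 (h : ℝ) (hh : |h| ≤ 1 / 2) (i : Fin 3) (hi : i ≠ 2) :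
    rho n (tau h ⁻¹' {i}) ≠ 0 := by
  have hm : MeasurableSet (tau (n := n) h ⁻¹' {i}) := measurable_tau h (measurableSet_singleton i)
  have hh' := abs_le.1 hh
  fin_cases i
  · refine rho_ne_zero _ hm (fun _ => 1 / 2) (fun _ => 1) (fun _ => by norm_num) ?_
    intro x hx
    have hx0 : 1 / 2 ≤ x 0 ∧ x 0 ≤ 1 := hx 0
    have hx1 : 1 / 2 ≤ x 1 ∧ x 1 ≤ 1 := hx 1
    refine ⟨?_, fun j => ?_⟩
    · simp only [Set.mem_preimage, Set.mem_singleton_iff, tau]
      rw [if_neg, if_pos (by linarith)]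
      · rfl
      · rw [abs_of_nonneg (by linarith), not_lt]; nlinarith
    · have hj : 1 / 2 ≤ x j ∧ x j ≤ 1 := hx j
      rw [abs_le]; constructor <;> linarith
  · refine rho_ne_zero _ hm (fun _ => -1) (fun _ => -(1 / 2)) (fun _ => by norm_num) ?_
    intro x hx
    have hx0 : -1 ≤ x 0 ∧ x 0 ≤ -(1 / 2) := hx 0
    have hx1 : -1 ≤ x 1 ∧ x 1 ≤ -(1 / 2) := hx 1
    refine ⟨?_, fun j => ?_⟩
    · simp only [Set.mem_preimage, Set.mem_singleton_iff, tau]
      rw [if_neg, if_neg (by linarith)]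
      · rfl
      · rw [abs_of_neg (by linarith), not_lt]; nlinarith
    · have hj : -1 ≤ x j ∧ x j ≤ -(1 / 2) := hx j
      rw [abs_le]; constructor <;> linarith
  · exact absurd rfl hi

lemma rho_wedge_neg (h : ℝ) : rho n (wedge n (-h)) = rho n (wedge n h) := by
  conv_lhs => rw [← map_refl1]
  rw [Measure.map_apply measurable_refl1 (measurableSet_wedge _), ← tau_pre2, ← tau_pre2]
  congr 1
  ext x
  simp only [Set.mem_preimage, tau_refl1]

lemma threeAtomic_TT (h : ℝ) (hh : |h| ≤ 1 / 2) (hw : rho n (wedge n h) ≠ 0) :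
    IsThreeAtomic ((rho n).map (TT n h)) := by
  apply threeAtomic (rho n) (atom n h) (atom_inj h) (tau h) (measurable_tau h)
  intro i
  by_cases hi : i = 2
  · rw [hi, tau_pre2]; exact hw
  · exact tau_pos01 h hh i hi

noncomputable def coup (n : ℕ) (h : ℝ) : Measure (EE n × EE n) :=
  (rho n).map (fun x => (TT n h x, TT n (-h) (refl1 n x)))

lemma measurable_pair (h : ℝ) : Measurable (fun x : EE n => (TT n h x, TT n (-h) (refl1 n x))) :=
  (measurable_TT h).prodMk ((measurable_TT (-h)).comp measurable_refl1)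

lemma coup_isCoupling (h : ℝ) :
    IsPairCoupling ((rho n).map (TT n h)) ((rho n).map (TT n (-h))) (coup n h) := by
  constructor
  · rw [coup, Measure.map_map measurable_fst (measurable_pair h)]
    rfl
  · rw [coup, Measure.map_map measurable_snd (measurable_pair h)]
    conv_rhs => rw [← map_refl1]
    rw [Measure.map_map (measurable_TT _) measurable_refl1]
    rfl

lemma norm_e0 : ‖e0 n‖ = 1 := by simp [e0]
lemma norm_e1 : ‖e1 n‖ = 1 := by simp [e1]

lemma cost_coup (h : ℝ) :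
    quadCost (coup n h) = ENNReal.ofReal (4 * h ^ 2) * rho n (wedge n h) := by
  unfold quadCost coup
  rw [lintegral_map (by fun_prop) (measurable_pair h), ← lintegral_indicator_const
    (measurableSet_wedge h)]
  congr 1
  ext x
  simp only [TT, Function.comp, tau_refl1]
  by_cases hx : x ∈ wedge n h
  · rw [Set.indicator_of_mem hx]
    have : tau h x = 2 := by
      rw [← tau_pre2] at hx; exact hx
    rw [this, enorm_sq_eq]
    congr 1
    have : atom n h 2 - atom n (-h) 2 = (2 * h) • e1 n := by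
      simp only [atom, Matrix.cons_val]
      rw [← sub_smul]; congr 1; ring
    rw [this, norm_smul, norm_e1, Real.norm_eq_abs, mul_one, sq_abs]
    ring
  · rw [Set.indicator_of_notMem hx]
    have h2 : tau h x ≠ 2 := by
      rw [← tau_pre2] at hx; exact hx
    have : atom n h (tau h x) = atom n (-h) (tau h x) := by
      generalize tau h x = i at h2
      fin_cases i
      · rfl
      · rfl
      · exact absurd rfl h2
    rw [this]; simp

lemma lower_int (h : ℝ) (S S' : EE n → EE n)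
    (hS : IsOptimalMap (rho n) ((rho n).map (TT n h)) S)
    (hS' : IsOptimalMap (rho n) ((rho n).map (TT n (-h))) S') :
    rho n (wedge n h) ≤ ∫⁻ x, ‖S x - S' x‖ₑ ^ 2 ∂(rho n) := by
  rw [← lintegral_indicator_one (measurableSet_wedge h)]
  apply lintegral_mono_ae
  filter_upwards [(opt_TT h).2 S hS, (opt_TT (-h)).2 S' hS'] with x hx hx'
  by_cases hw : x ∈ wedge n h
  · rw [Set.indicator_of_mem hw]
    have hw' : |x 0| < h * x 1 := hw
    obtain ⟨⟨i, hi⟩, h1⟩ := hx
    obtain ⟨⟨j, hj⟩, h2⟩ := hx'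
    rw [inner_TT, ← hi, max_eq_right hw'.le] at h1
    have ha := abs_nonneg (x 0)
    rw [inner_TT, ← hj, max_eq_left (by linarith)] at h2
    have hl1 := le_abs_self (x 0)
    have hl2 := neg_le_abs (x 0)
    have hi2 : i = 2 := by
      fin_cases i
      · simp only [Fin.zero_eta, inner_atom0] at h1; linarith
      · simp only [Fin.mk_one, inner_atom1] at h1; linarith
      · rfl
    have e00 : (e0 n) 0 = 1 := by simp [e0]
    have e01 : (e0 n) 1 = 0 := by simp [e0]
    have key : 1 ≤ |inner ℝ (e0 n) (S x - S' x)| := by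
      rw [inner_sub_right, ← hi, ← hj, hi2, inner_atom2, e01]
      fin_cases j
      · simp [inner_atom0, e00]
      · simp [inner_atom1, e00]
      · simp only [Fin.reduceFinMk, inner_atom2] at h2; linarith
    have h3 := abs_real_inner_le_norm (e0 n) (S x - S' x)
    rw [norm_e0, one_mul] at h3
    rw [enorm_sq_eq, Pi.one_apply, ← ENNReal.ofReal_one]
    apply ENNReal.ofReal_le_ofReal
    nlinarith
  · rw [Set.indicator_of_notMem hw]; exact zero_le

lemma choose_h (α : ℝ) (hα : 1 / 3 < α) (C c : ℝ) (hc : 0 < c) :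
    ∃ h : ℝ, 0 < h ∧ h ≤ 1 / 2 ∧ C * (4 * h ^ 3) ^ α < c * h := by
  have hβ : 0 < 3 * α - 1 := by linarith
  have ht : Filter.Tendsto (fun h : ℝ => C * 4 ^ α * h ^ (3 * α - 1)) (nhdsWithin 0 (Set.Ioi 0))
      (nhds (C * 4 ^ α * 0)) := by
    apply Filter.Tendsto.const_mul
    have : ContinuousAt (fun h : ℝ => h ^ (3 * α - 1)) 0 :=
      Real.continuousAt_rpow_const 0 _ (Or.inr hβ.le)
    have h2 := this.tendsto
    rw [Real.zero_rpow hβ.ne'] at h2
    exact h2.mono_left nhdsWithin_le_nhds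
  rw [mul_zero] at ht
  have h1 := ht.eventually (gt_mem_nhds hc)
  have h2 : ∀ᶠ h in nhdsWithin (0 : ℝ) (Set.Ioi 0), h ∈ Set.Ioc (0 : ℝ) (1 / 2) :=
    Ioc_mem_nhdsGT (by norm_num)
  obtain ⟨h, hh1, hh2⟩ := (h1.and h2).exists
  refine ⟨h, hh2.1, hh2.2, ?_⟩
  have h0 := hh2.1
  have : (4 * h ^ 3) ^ α = 4 ^ α * h ^ (3 * α - 1) * h := by
    rw [Real.mul_rpow (by norm_num) (by positivity), ← Real.rpow_natCast, ← Real.rpow_mul h0.le,
      Real.rpow_sub h0, Real.rpow_one]
    field_simp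
    norm_num [mul_comm]
  rw [this]
  nlinarith

end concrete

end Crest.Agent.R82B
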